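import Vale.Agent.P058.Defs
import Vale.Agent.P058.Kite
import Vale.Agent.P058.NotSub

/-!
A finite Euclidean Ramsey set that is not subtransitive.
-/

namespace Vale.Agent.Results.P058.RamseyNotSubtransitive

open Vale.Agent.P058

/-- Every cyclic kite is Ramsey. -/
theorem kite_isRamsey {c : ℝ} (hc : c ^ 2 < 1) : IsRamsey (kite c) := by
  classical
  refine ⟨⟨!₂[1, 0], by simp [kite]⟩, fun r hr => ?_⟩
  obtain ⟨D, hD⟩ := kite_colour c hc r
  refine ⟨D, ?_, fun χ => ?_⟩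
  · obtain ⟨p₁, p₂, _, _, h, -⟩ := hD (fun _ => ⟨0, by omega⟩)
    rcases Nat.eq_zero_or_pos D with rfl | h0
    · simp [sqd] at h
    · exact h0
  obtain ⟨p₁, p₂, p₃, p₄, h12, h13, h14, h23, h24, h34, c12, c13, c14⟩ :=
    hD (fun x => χ (WithLp.toLp 2 x))
  let P₁ : EuclideanSpace ℝ (Fin 2) := !₂[1, 0]
  let P₂ : EuclideanSpace ℝ (Fin 2) := !₂[-1, 0]
  let P₃ : EuclideanSpace ℝ (Fin 2) := !₂[c, Real.sqrt (1 - c ^ 2)]
  let f : EuclideanSpace ℝ (Fin 2) → EuclideanSpace ℝ (Fin D) := fun x =>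
    if x = P₁ then WithLp.toLp 2 p₁ else if x = P₂ then WithLp.toLp 2 p₂
    else if x = P₃ then WithLp.toLp 2 p₃ else WithLp.toLp 2 p₄
  obtain ⟨d1, d2, d3, d4, d5, d6⟩ := kite_dist hc
  have hsq : ∀ x y : Fin D → ℝ,
      dist (WithLp.toLp 2 x) (WithLp.toLp 2 y : EuclideanSpace ℝ (Fin D)) ^ 2 = sqd x y := by
    intro x y
    simp [EuclideanSpace.dist_sq_eq, sqd, Real.dist_eq, sq_abs]
  have hs : 0 < 1 - c ^ 2 := by linarith
  have hne : ∀ {x y : EuclideanSpace ℝ (Fin 2)} {v : ℝ}, dist x y ^ 2 = v → 0 < v → x ≠ y := by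
    rintro x y v h hv rfl
    simp at h
    linarith
  have hc1 : c < 1 := by nlinarith
  have hc2 : -1 < c := by nlinarith
  have n12 : P₁ ≠ P₂ := hne d1 (by norm_num)
  have n13 : P₁ ≠ P₃ := hne d2 (by linarith)
  have n23 : P₂ ≠ P₃ := hne d4 (by linarith)
  set P₄ : EuclideanSpace ℝ (Fin 2) := !₂[c, -Real.sqrt (1 - c ^ 2)]
  have n14 : P₁ ≠ P₄ := hne d3 (by linarith)
  have n24 : P₂ ≠ P₄ := hne d5 (by linarith)
  have n34 : P₃ ≠ P₄ := hne d6 (by linarith)
  have f1 : f P₁ = WithLp.toLp 2 p₁ := if_pos rfl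
  have f2 : f P₂ = WithLp.toLp 2 p₂ := by simp [f, n12.symm]
  have f3 : f P₃ = WithLp.toLp 2 p₃ := by simp [f, n13.symm, n23.symm]
  have f4 : f P₄ = WithLp.toLp 2 p₄ := by simp [f, n14.symm, n24.symm, n34.symm]
  have hd : ∀ {x y : Fin D → ℝ} {z w : EuclideanSpace ℝ (Fin 2)} {v : ℝ},
      sqd x y = v → dist z w ^ 2 = v →
      dist (WithLp.toLp 2 x) (WithLp.toLp 2 y : EuclideanSpace ℝ (Fin D)) = dist z w := by
    intro x y z w v h h'
    rw [← sq_eq_sq₀ dist_nonneg dist_nonneg, hsq, h, h']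
  have e12 : dist (f P₁) (f P₂) = dist P₁ P₂ := by rw [f1, f2]; exact hd h12 d1
  have e13 : dist (f P₁) (f P₃) = dist P₁ P₃ := by rw [f1, f3]; exact hd h13 d2
  have e14 : dist (f P₁) (f P₄) = dist P₁ P₄ := by rw [f1, f4]; exact hd h14 d3
  have e23 : dist (f P₂) (f P₃) = dist P₂ P₃ := by rw [f2, f3]; exact hd h23 d4
  have e24 : dist (f P₂) (f P₄) = dist P₂ P₄ := by rw [f2, f4]; exact hd h24 d5
  have e34 : dist (f P₃) (f P₄) = dist P₃ P₄ := by rw [f3, f4]; exact hd h34 d6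
  have e21 : dist (f P₂) (f P₁) = dist P₂ P₁ := by
    rw [dist_comm (f P₂) (f P₁), dist_comm P₂ P₁]; exact e12
  have e31 : dist (f P₃) (f P₁) = dist P₃ P₁ := by
    rw [dist_comm (f P₃) (f P₁), dist_comm P₃ P₁]; exact e13
  have e41 : dist (f P₄) (f P₁) = dist P₄ P₁ := by
    rw [dist_comm (f P₄) (f P₁), dist_comm P₄ P₁]; exact e14
  have e32 : dist (f P₃) (f P₂) = dist P₃ P₂ := by
    rw [dist_comm (f P₃) (f P₂), dist_comm P₃ P₂]; exact e23
  have e42 : dist (f P₄) (f P₂) = dist P₄ P₂ := by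
    rw [dist_comm (f P₄) (f P₂), dist_comm P₄ P₂]; exact e24
  have e43 : dist (f P₄) (f P₃) = dist P₄ P₃ := by
    rw [dist_comm (f P₄) (f P₃), dist_comm P₄ P₃]; exact e34
  have hmem : ∀ x ∈ kite c, x = P₁ ∨ x = P₂ ∨ x = P₃ ∨ x = P₄ := fun x hx => by
    simpa [kite] using hx
  refine ⟨f, fun x hx y hy => ?_, χ (WithLp.toLp 2 p₁), fun x hx => ?_⟩
  · rcases hmem x hx with rfl | rfl | rfl | rfl
    · rcases hmem y hy with rfl | rfl | rfl | rfl
      · rw [dist_self, dist_self]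
      · exact e12
      · exact e13
      · exact e14
    · rcases hmem y hy with rfl | rfl | rfl | rfl
      · exact e21
      · rw [dist_self, dist_self]
      · exact e23
      · exact e24
    · rcases hmem y hy with rfl | rfl | rfl | rfl
      · exact e31
      · exact e32
      · rw [dist_self, dist_self]
      · exact e34
    · rcases hmem y hy with rfl | rfl | rfl | rfl
      · exact e41
      · exact e42
      · exact e43
      · rw [dist_self, dist_self]
  · rcases hmem x hx with rfl | rfl | rfl | rfl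
    · rw [f1]
    · rw [f2]; exact c12.symm
    · rw [f3]; exact c13.symm
    · rw [f4]; exact c14.symm

/-- Every cyclic kite is Ramsey, only countably many of them are subtransitive, so some finite
Ramsey set is not subtransitive. -/
theorem result :
    (∀ c : ℝ, c ^ 2 < 1 → IsRamsey (kite c)) ∧
    {c : ℝ | c ^ 2 < 1 ∧ IsSubtransitive (kite c)}.Countable ∧
    ∃ A : Finset (EuclideanSpace ℝ (Fin 2)), IsRamsey A ∧ ¬IsSubtransitive A := by
  refine ⟨fun c hc => kite_isRamsey hc, subtransitive_kites_countable, ?_⟩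
  obtain ⟨c, hc, hns⟩ : ∃ c : ℝ, c ^ 2 < 1 ∧ ¬IsSubtransitive (kite c) := by
    by_contra h
    push Not at h
    have hsub : Set.Ioo (0 : ℝ) 1 ⊆ {c : ℝ | c ^ 2 < 1 ∧ IsSubtransitive (kite c)} := fun c hc =>
      have hc2 : c ^ 2 < 1 := by obtain ⟨h0, h1⟩ := hc; nlinarith
      ⟨hc2, h c hc2⟩
    exact absurd (subtransitive_kites_countable.mono hsub) (Cardinal.Real.Ioo_countable_iff.not.2 (by norm_num))
  exact ⟨kite c, kite_isRamsey hc, hns⟩

end Vale.Agent.Results.P058.RamseyNotSubtransitive
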